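import Vale.Agent.P011UM.Clo
import Vale.Agent.P011UZ2.Nsur
import Vale.Agent.P011UE.FI

/-!
Approximation by the elements of a noncentral normal subgroup.
-/

set_option autoImplicit false
set_option linter.all false

open Module Filter Topology Set TensorProduct Polynomial
open scoped commutatorElement

namespace Vale.Agent.P011UM

open Vale.Agent.P011.H738 (Place)
open Vale.Agent.P011.W (Spl spl_iff)
open Vale.Agent.P011.H210 (SR)
open Vale.Agent.P011UE Vale.Agent.P011UE0 Vale.Agent.P011UZ2 Vale.Agent.P011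

/-- A local representation. -/
structure Lc (k D : Type) [Field k] [DivisionRing D] [Algebra k D] where
  F : Type
  [nf : NormedField F]
  m : ℕ
  φ : k →+* F
  f : D →+* Matrix (Fin m) (Fin m) F
  hf : ∀ c d, f (c • d) = φ c • f d
  π : Place k ⊕ (k →+* ℝ)
  hn : ∀ c, ‖φ c‖ = ab π c
  hd : DenseRange φ

attribute [local instance] Lc.nf

variable {k D : Type} [Field k] [DivisionRing D] [Algebra k D]

theorem dense {ι : Type} [Finite ι] (L : ι → Lc k D) (h : Function.Injective fun i => (L i).π) :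
    DenseRange fun (c : k) i => (L i).φ c := by
  have := Fintype.ofFinite ι
  refine Metric.denseRange_iff.2 fun z r hr => ?_
  choose b hb using fun i => (L i).hd.exists_dist_lt (z i) (half_pos hr)
  have hd := AbsoluteValue.denseRange_algebraMap_pi (F := k) (v := fun i => ab (L i).π)
    (fun i => ab_nt _) fun i j hij e => hij (h (ab_ineq e))
  obtain ⟨a, ha⟩ := hd.exists_dist_lt (fun i => WithAbs.toAbs (ab (L i).π) (b i)) (half_pos hr)
  refine ⟨a, (dist_pi_lt_iff hr).2 fun i => ?_⟩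
  have h1 : dist (WithAbs.toAbs (ab (L i).π) (b i)) (WithAbs.toAbs (ab (L i).π) a) < r / 2 :=
    (dist_le_pi_dist (fun i => WithAbs.toAbs (ab (L i).π) (b i)) _ i).trans_lt ha
  rw [dist_eq_norm] at h1
  have h2 : dist ((L i).φ (b i)) ((L i).φ a) < r / 2 := by
    rw [dist_eq_norm, ← map_sub, (L i).hn]
    exact lt_of_eq_of_lt rfl h1
  exact (dist_triangle _ _ _).trans_lt ((add_lt_add (hb i) h2).trans_eq (add_halves r))

/-- Products of unipotent elements. -/
def Un (L : Lc k D) (g : (Matrix (Fin L.m) (Fin L.m) L.F)ˣ) : Prop :=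
  ∃ (R : Type) (_ : Ring R) (_ : Algebra k R) (_ : IsSemisimpleRing R)
    (θ : R →+* Matrix (Fin L.m) (Fin L.m) L.F) (u : Rˣ),
    (∀ x, θ x ∈ Submodule.span L.F (range L.f)) ∧ u ∈ Tv R ∧
      Units.map (θ : R →* Matrix (Fin L.m) (Fin L.m) L.F) u = g

/-- The local condition holds near a product of unipotent elements. -/
def Pk (π : Place k ⊕ (k →+* ℝ)) (P : Dˣ → Prop) : Prop :=
  ∃ L : Lc k D, L.π = π ∧ ∃ γ, (γ = 1 ∨ Un L γ) ∧ ∃ U ∈ 𝓝 γ, ∀ q : Dˣ,
    Units.map (L.f : D →* Matrix (Fin L.m) (Fin L.m) L.F) q ∈ U → P q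

variable [FiniteDimensional k D] {n : ℕ} {N : D →* k} {H : Subgroup Dˣ}

theorem ex (hN : NST) (h : Dv k D n N) (hH : NN N H) {ι : Type} [Finite ι]
    (π : ι → Place k ⊕ (k →+* ℝ)) (hπ : Function.Injective π) (P : ι → Dˣ → Prop)
    (hP : ∀ i, Pk (π i) (P i)) : ∃ q ∈ H, ∀ i, P i q := by
  classical
  choose L h1 γ h2 U h3 h4 using hP
  obtain ⟨Q, h5, hQ, h6⟩ := hH.exists_normal h (hN k D n N h H hH)
  have := h.infinite
  have h7 : γ ∈ cl (rho fun i => (L i).f) Q := Subgroup.pi_mem_of_mulSingle_mem γ fun i => by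
    rcases h2 i with e | ⟨R, _, _, _, θ, u, h8, h9, e⟩
    · rw [e, Pi.mulSingle_one]
      exact one_mem _
    · rw [← e]
      exact main (fun i => (L i).hf) (dense L (funext h1 ▸ hπ)) (comm_mem N)
        (hN k D n N h Q h6) i θ h8 h9
  obtain ⟨q, h8, h9⟩ := cl_ex h7 (set_pi_mem_nhds finite_univ fun i _ => h3 i)
  exact ⟨q, h5 h8, fun i => h4 i q (h9 i trivial)⟩

variable (D) in
/-- The regular representation. -/
noncomputable def gv (v : Place k) :
    D →ₐ[k] Matrix (Fin (finrank k D)) (Fin (finrank k D)) v.comp :=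
  (Algebra.ofId k v.comp).mapMatrix.comp (Algebra.leftMulMatrix (finBasis k D))

theorem dense_comp (v : Place k) : DenseRange (algebraMap k v.comp) :=
  Metric.denseRange_iff.2 fun x _ hr => (H271.dense_alg v x hr).imp fun _ h =>
    (dist_eq_norm _ _).trans_lt h

variable (D) in
/-- The regular representation at a place. -/
noncomputable def lv (v : Place k) : Lc k D where
  F := v.comp
  m := finrank k D
  φ := algebraMap k v.comp
  f := gv D v
  hf c d := (map_smul (gv D v) c d).trans (algebraMap_smul v.comp c _).symm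
  π := .inl v
  hn := H271.norm_alg v
  hd := dense_comp v

theorem near (v : Place k) {ε : ℝ} (hε : 0 < ε) :
    ∃ W ∈ 𝓝 (1 : Matrix (Fin (finrank k D)) (Fin (finrank k D)) v.comp), ∀ x : D, gv D v x ∈ W →
      ∀ j, v.abv ((finBasis k D).repr (x - 1) j) < ε := by
  refine ⟨{M | ∀ j, ‖Matrix.mulVec (M - 1) (algebraMap k v.comp ∘ (finBasis k D).repr 1) j‖ < ε},
    eventually_all.2 fun j => ContinuousAt.eventually_lt (by fun_prop) continuousAt_const ?_,
    fun x hx j => ?_⟩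
  · rwa [sub_self, Matrix.zero_mulVec, Pi.zero_apply, norm_zero]
  · have h1 := hx j
    rw [← map_one (gv D v), ← map_sub] at h1
    have h2 := (algebraMap k v.comp).map_mulVec (Algebra.leftMulMatrix (finBasis k D) (x - 1))
      ((finBasis k D).repr 1) j
    rw [Algebra.leftMulMatrix_mulVec_repr, mul_one] at h2
    rw [← H271.norm_alg, h2]
    exact h1

theorem pk_one (v : Place k) {ε : ℝ} (hε : 0 < ε) :
    Pk (.inl v) fun q : Dˣ => ∀ j, v.abv ((finBasis k D).repr (q - 1) j) < ε := by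
  obtain ⟨W, h1, h2⟩ := near (D := D) v hε
  exact ⟨lv D v, rfl, 1, Or.inl rfl, _, Units.continuous_val.continuousAt.preimage_mem_nhds h1,
    fun q hq => h2 q hq⟩

theorem semi (h : Dv k D n N) (F : Type) [Field F] [Algebra k F] :
    IsSimpleRing (F ⊗[k] D) ∧ IsArtinianRing (F ⊗[k] D) :=
  have := h.central
  ⟨P011S.simple_tensor, IsArtinianRing.of_finite F _⟩

theorem lift_mem {F B : Type} [Field F] [Algebra k F] [Ring B] [Algebra k B] [Algebra F B]
    [IsScalarTower k F B] (g : D →ₐ[k] B) (x : F ⊗[k] D) :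
    AlgHom.liftEquiv k F D B g x ∈ Submodule.span F (range g) := by
  induction x using TensorProduct.induction_on with
  | zero =>
    rw [map_zero]
    exact zero_mem _
  | tmul a d =>
    rw [AlgHom.liftEquiv_tmul]
    exact Submodule.smul_mem _ _ (Submodule.subset_span (mem_range_self d))
  | add x y hx hy =>
    rw [map_add]
    exact add_mem hx hy

theorem cont_inv {R : Type} [Ring R] [TopologicalSpace R] [IsTopologicalRing R] (γ : Rˣ) :
    Continuous fun a : Rˣ => (a⁻¹ * γ).1 :=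
  Units.continuous_coe_inv.mul continuous_const

theorem pk_tv (h : Dv k D n N) (v : Place k) {g : Dˣ} {u : (v.comp ⊗[k] D)ˣ}
    (hu : u ∈ Tv (v.comp ⊗[k] D)) (e : u.1 = 1 ⊗ₜ g.1) {ε : ℝ} (hε : 0 < ε) :
    Pk (.inl v) fun q : Dˣ => ∀ j, v.abv ((finBasis k D).repr ((q⁻¹ * g : Dˣ) - 1) j) < ε := by
  obtain ⟨W, h1, h2⟩ := near (D := D) v hε
  obtain ⟨h3, h4⟩ := semi h v.comp
  let γ := Units.map (gv D v : D →* Matrix (Fin (finrank k D)) (Fin (finrank k D)) v.comp) g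
  have h5 : Continuous fun a : (Matrix (Fin (finrank k D)) (Fin (finrank k D)) v.comp)ˣ =>
      (a⁻¹ * γ).1 := cont_inv γ
  refine ⟨lv D v, rfl, γ, Or.inr ⟨_, _, inferInstance,
    IsSimpleRing.isSemisimpleRing_iff_isArtinianRing.2 h4,
    (AlgHom.liftEquiv k v.comp D _ (gv D v)).toRingHom, u, lift_mem (gv D v), hu,
    Units.ext ?_⟩, _, h5.continuousAt.preimage_mem_nhds (t := W) ?_, fun q hq => h2 _ ?_⟩
  · exact ((congrArg (AlgHom.liftEquiv k v.comp D _ (gv D v)) e).trans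
      (AlgHom.liftEquiv_tmul (gv D v) 1 g.1)).trans (one_smul _ _)
  · rwa [inv_mul_cancel]
  · rw [Units.val_mul, map_mul]
    exact hq

theorem den0 (hN : NST) (h : Dv k D n N) (hH : NN N H) {T : Finset (Place k)} {v : Place k}
    (hv : v ∉ T) {g : Dˣ} {u : (v.comp ⊗[k] D)ˣ} (hu : u ∈ Tv (v.comp ⊗[k] D))
    (e : u.1 = 1 ⊗ₜ g.1) {O O' : Set Dˣ} (hO : O ∈ nU T D) (hO' : O' ∈ nU {v} D) :
    ∃ q ∈ H, q ∈ O ∧ q⁻¹ * g ∈ O' := by
  obtain ⟨A, ⟨ε, hε, h1⟩, h2⟩ := hO
  obtain ⟨A', ⟨ε', hε', h3⟩, h4⟩ := hO'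
  obtain ⟨q, h5, h6⟩ := ex hN h hH (ι := Unit ⊕ T)
    (Sum.elim (fun _ => .inl v) fun w => .inl w.1) (by
      rintro (a | a) (b | b) e
      · rfl
      · exact (hv (Sum.inl.inj e ▸ b.2)).elim
      · exact (hv (Sum.inl.inj e ▸ a.2)).elim
      · exact congrArg _ (Subtype.ext (Sum.inl.inj e)))
    (Sum.elim (fun _ q => ∀ j, v.abv ((finBasis k D).repr ((q⁻¹ * g : Dˣ) - 1) j) < ε')
      fun w q => ∀ j, w.1.abv ((finBasis k D).repr (q - 1) j) < ε) (by
      rintro (a | a)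
      · exact pk_tv h v hu e hε'
      · exact pk_one a.1 hε)
  exact ⟨q, h5, h2 (h1 _ fun w hw => h6 (.inr ⟨w, hw⟩)),
    h4 (h3 _ fun w hw => (Finset.mem_singleton.1 hw).symm ▸ h6 (.inl ()))⟩

theorem denc (hN : NST) : DENC := fun k D _ _ _ _ n N h H hH T v hv hd a b O hO O' hO' => by
  obtain ⟨h1, h2⟩ := semi h v.comp
  let i : D →* v.comp ⊗[k] D := (Algebra.TensorProduct.includeRight : D →ₐ[k] v.comp ⊗[k] D)
  refine den0 hN h hH hv (comm_Tv (by simpa [Dp] using hd) (Units.map i a) (Units.map i b)) ?_ hO hO'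
  rw [← map_commutatorElement]
  rfl

theorem dens (hN : NST) : DENS := fun k D _ _ _ _ n N h H hH T v hv hs g hg O hO O' hO' => by
  obtain ⟨h1, h2⟩ := semi h v.comp
  obtain ⟨f⟩ := spl_iff.1 hs
  have := h.central
  have : Nonempty (Fin n) := ⟨⟨0, zero_lt_two.trans_le h.le⟩⟩
  let θ : v.comp ⊗[k] D →ₐ[v.comp] Matrix (Fin n) (Fin n) v.comp := AlgHom.liftEquiv k v.comp D _ f
  have h3 : ∀ x, θ (1 ⊗ₜ x) = f x := fun x => (AlgHom.liftEquiv_tmul f 1 x).trans (one_smul _ _)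
  let e := AlgEquiv.ofBijective θ ⟨θ.toRingHom.injective, fun X => by
    obtain ⟨r, hr⟩ := H380.Good7.exists_coord h.rank f (finBasis k D) X
    refine ⟨∑ l, r l • (1 ⊗ₜ finBasis k D l), ?_⟩
    rw [map_sum, ← hr]
    exact Finset.sum_congr rfl fun l _ => by rw [map_smul, h3]⟩
  refine den0 hN h hH hv (Tv_map (e.symm : Matrix (Fin n) (Fin n) v.comp →+* v.comp ⊗[k] D)
    (det_Tv (Units.map (f : D →* Matrix (Fin n) (Fin n) v.comp) g) ?_)) ?_ hO hO'
  · exact (h.nrd g v.comp f).trans ((congrArg _ (mem_G1.1 hg)).trans (map_one _))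
  · exact e.symm_apply_eq.2 (h3 g).symm

theorem exists_eig {F : Type} [NormedField F] (hF : ∃ x : F, 1 < ‖x‖) {δ : F} (hn : n ≠ 0) :
    ∃ a : Fin n → F, Function.Injective a ∧ ∏ i, a i = δ := by
  obtain ⟨m, rfl⟩ := Nat.exists_eq_succ_of_ne_zero hn
  obtain ⟨x, hx⟩ := hF
  obtain ⟨M, hM⟩ := pow_unbounded_of_one_lt (max 1 ‖δ‖) hx
  rw [← norm_pow, max_lt_iff] at hM
  generalize x ^ M = t at hM
  have h0 : t ≠ 0 := norm_pos_iff.1 (one_pos.trans hM.1)
  have h1 : ∏ i : Fin m, t ^ (i.1 + 1) ≠ 0 := Finset.prod_ne_zero_iff.2 fun i _ => pow_ne_zero _ h0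
  refine ⟨Fin.cons (δ / ∏ i : Fin m, t ^ (i.1 + 1)) fun i : Fin m => t ^ (i.1 + 1),
    Fin.cons_injective_iff.2 ⟨?_, fun i j e => ?_⟩, ?_⟩
  · rintro ⟨i, e⟩
    rw [eq_div_iff h1, Finset.prod_pow_eq_pow_sum, ← pow_add] at e
    refine hM.2.not_ge ?_
    rw [← e, norm_pow]
    exact le_self_pow₀ hM.1.le (by omega)
  · have h2 := congrArg norm e
    rw [norm_pow, norm_pow] at h2
    exact Fin.ext (Nat.succ_injective ((pow_right_strictMono₀ hM.1).injective h2))
  · rw [Fin.prod_cons, div_mul_cancel₀ _ h1]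

theorem pk_sr (h : Dv k D n N) {F : Type} [NormedField F] [CompleteSpace F]
    (hF : ∃ x : F, 1 < ‖x‖) {φ : k →+* F} (hs : Spl D n φ) {π : Place k ⊕ (k →+* ℝ)}
    (h1 : ∀ c, ‖φ c‖ = ab π c) (h2 : DenseRange φ) (x : Dˣ) :
    Pk π fun q : Dˣ => (minpoly k ((x * q : Dˣ) : D)).natDegree = n ∧
      (minpoly k ((x * q : Dˣ) : D)).Separable ∧ ((minpoly k ((x * q : Dˣ) : D)).map φ).Splits := by
  have := h.central
  let _ := φ.toAlgebra
  obtain ⟨g⟩ := (spl_iff (R := F)).1 hs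
  let X := Units.map (g : D →* Matrix (Fin n) (Fin n) F) x
  obtain ⟨a, h3, h4⟩ := exists_eig hF (δ := X.1.det) (zero_lt_two.trans_le h.le).ne'
  have h5 : (X⁻¹.1 * Matrix.diagonal a).det = 1 := by
    rw [Matrix.det_mul, Matrix.det_diagonal, h4, ← Matrix.det_mul, X.inv_mul, Matrix.det_one]
  obtain ⟨γ, hγ⟩ := (Matrix.isUnit_iff_isUnit_det _).2 (h5 ▸ isUnit_one)
  have h6 : Continuous fun a : (Matrix (Fin n) (Fin n) F)ˣ => X.1 * a.1 :=
    continuous_const.mul Units.continuous_val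
  refine ⟨⟨F, n, φ, g, fun c d => (map_smul g c d).trans (algebraMap_smul F c _).symm, π, h1, h2⟩,
    rfl, γ, Or.inr ⟨_, _, inferInstance, inferInstance, RingHom.id _, γ, fun Y => ?_,
    det_Tv γ (hγ ▸ h5), rfl⟩, _, h6.continuousAt.preimage_mem_nhds
    ((H210.isOpen_SR' hF).mem_nhds ?_), fun q hq => of_SR h g ?_⟩
  · obtain ⟨r, hr⟩ := H380.Good7.exists_coord h.rank g (finBasis k D) Y
    exact (congrArg (· ∈ _) hr).mp (sum_mem fun l _ =>
      Submodule.smul_mem _ _ (Submodule.subset_span ⟨_, rfl⟩))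
  · rw [hγ, Units.mul_inv_cancel_left]
    exact H210.diagonal_mem_SR h3
  · rw [Units.val_mul, map_mul]
    exact hq

theorem splq (hN : NST) (hR : RAM) : SPLQ := fun k D _ _ _ _ n N h H hH T j hj hs x O hO => by
  classical
  obtain ⟨h1, _⟩ := hR k D n N h
  obtain ⟨w, hw⟩ := Infinite.exists_notMem_finset (T ∪ h1.toFinset)
  rw [Finset.mem_union, not_or, Set.Finite.mem_toFinset, Set.mem_ofPred_eq, not_not] at hw
  have h2 : ∀ v ∈ insert w j, v ∉ T ∧ Sp D n v := fun v hv => by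
    rcases Finset.mem_insert.1 hv with rfl | hv
    · exact hw
    · exact ⟨Finset.disjoint_left.1 hj hv, hs v hv⟩
  have := fin_real h.glob
  obtain ⟨A, ⟨ε, hε, h3⟩, h4⟩ := hO
  obtain ⟨q, h5, h6⟩ := ex hN h hH (ι := T ⊕ (insert w j : Finset _) ⊕ {φ : k →+* ℝ // Spl D n φ})
    (Sum.elim (fun v => .inl v.1) (Sum.elim (fun v => .inl v.1) fun φ => .inr φ.1)) (by
      rintro (a | a | a) (b | b | b) e
      · exact congrArg _ (Subtype.ext (Sum.inl.inj e))
      · exact ((h2 _ b.2).1 (Sum.inl.inj e ▸ a.2)).elim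
      · exact (Sum.inl_ne_inr e).elim
      · exact ((h2 _ a.2).1 (Sum.inl.inj e ▸ b.2)).elim
      · exact congrArg _ (congrArg _ (Subtype.ext (Sum.inl.inj e)))
      · exact (Sum.inl_ne_inr e).elim
      · exact (Sum.inr_ne_inl e).elim
      · exact (Sum.inr_ne_inl e).elim
      · exact congrArg _ (congrArg _ (Subtype.ext (Sum.inr.inj e))))
    (Sum.elim (fun v q => ∀ j, v.1.abv ((finBasis k D).repr (q - 1) j) < ε) (Sum.elim
      (fun v q => (minpoly k ((x * q : Dˣ) : D)).natDegree = n ∧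
        (minpoly k ((x * q : Dˣ) : D)).Separable ∧
        ((minpoly k ((x * q : Dˣ) : D)).map (algebraMap k v.1.comp)).Splits)
      fun φ q => (minpoly k ((x * q : Dˣ) : D)).natDegree = n ∧
        (minpoly k ((x * q : Dˣ) : D)).Separable ∧
        ((minpoly k ((x * q : Dˣ) : D)).map φ.1).Splits)) (by
      rintro (v | v | φ)
      · exact pk_one v.1 hε
      · exact pk_sr (π := .inl v.1) h (comp_nt v.1) (h2 _ v.2).2 (H271.norm_alg v.1) (dense_comp v.1) x
      · have : CharZero k := φ.1.charZero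
        refine pk_sr (π := .inr φ.1) h ⟨2, by norm_num⟩ φ.2 (fun _ => rfl) (Rat.denseRange_cast.mono ?_) x
        rintro _ ⟨r, rfl⟩
        exact ⟨r, map_ratCast _ r⟩)
  have h7 := h6 (.inr (.inl ⟨w, Finset.mem_insert_self _ _⟩))
  refine ⟨q, h5, h4 (h3 _ fun v hv => h6 (.inl ⟨v, hv⟩)), h7.1, h7.2.1,
    fun v hv => (h6 (.inr (.inl ⟨v, Finset.mem_insert_of_mem hv⟩))).2.2, fun φ hφ => ?_⟩
  refine (h6 (.inr (.inr ⟨φ, hφ⟩))).2.2.exists_eval_eq_zero fun e => ?_
  have h8 := natDegree_eq_zero_iff_degree_le_zero.2 e.le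
  rw [natDegree_map, h7.1] at h8
  exact (zero_lt_two.trans_le h.le).ne' h8

end Vale.Agent.P011UM
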