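import Vale.Agent.P011UE0.Dieu

/-!
The closure of a normal subgroup of finite index contains the unipotent elements.
-/

set_option autoImplicit false
set_option linter.all false

namespace Vale.Agent.P011UM

open Vale.Agent.P011UE0 Topology Set
open scoped commutatorElement

theorem reg {R : Type*} [Ring R] [IsSemisimpleRing R] (x : R) : ∃ y, x * y * x = x := by
  obtain ⟨e, he, h⟩ := IsSemisimpleRing.ideal_eq_span_idempotent (Ideal.span {x})
  have h1 : e ∈ Ideal.span {x} := h ▸ Ideal.mem_span_singleton_self e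
  have h2 : x ∈ Ideal.span {e} := h ▸ Ideal.mem_span_singleton_self x
  obtain ⟨y, hy⟩ := Ideal.mem_span_singleton'.1 h1
  obtain ⟨r, hr⟩ := Ideal.mem_span_singleton'.1 h2
  refine ⟨y, ?_⟩
  rw [mul_assoc, hy, ← hr, mul_assoc, he.eq]

section grp

variable {G Γ : Type*} [Group G] [Group Γ] [TopologicalSpace Γ] [IsTopologicalGroup Γ]
  (ρ : G →* Γ)

/-- The closure of the image. -/
def cl (Q : Subgroup G) : Subgroup Γ := (Q.map ρ).topologicalClosure

variable {ρ} {Q C : Subgroup G}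

theorem mem_cl {g : G} (h : g ∈ Q) : ρ g ∈ cl ρ Q :=
  Subgroup.le_topologicalClosure _ ⟨g, h, rfl⟩

theorem cl_closed : IsClosed (cl ρ Q : Set Γ) := Subgroup.isClosed_topologicalClosure _

theorem cl_ex {γ : Γ} (h : γ ∈ cl ρ Q) {U : Set Γ} (hU : U ∈ 𝓝 γ) : ∃ q ∈ Q, ρ q ∈ U := by
  obtain ⟨_, h1, q, h2, rfl⟩ := mem_closure_iff_nhds.1 h U hU
  exact ⟨q, h2, h1⟩

theorem cl_conj [hQ : Q.Normal] {p q : Γ} (hp : p ∈ cl ρ ⊤) (hq : q ∈ cl ρ Q) :
    p * q * p⁻¹ ∈ cl ρ Q :=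
  map_mem_closure₂ (f := fun p q : Γ => p * q * p⁻¹) (by fun_prop) hp hq (by
    rintro _ ⟨a, -, rfl⟩ _ ⟨b, hb, rfl⟩
    exact ⟨a * b * a⁻¹, hQ.conj_mem b hb a, by simp⟩)

theorem cl_comm (hC : ∀ a b : G, ⁅a, b⁆ ∈ C) {p q : Γ} (hp : p ∈ cl ρ ⊤) (hq : q ∈ cl ρ ⊤) :
    p * q * p⁻¹ * q⁻¹ ∈ cl ρ C :=
  map_mem_closure₂ (f := fun p q : Γ => p * q * p⁻¹ * q⁻¹) (by fun_prop) hp hq (by
    rintro _ ⟨a, -, rfl⟩ _ ⟨b, -, rfl⟩
    exact ⟨⁅a, b⁆, hC a b, by simp [commutatorElement_def]⟩)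

theorem cl_fin (h : Q.relIndex C ≠ 0) {X : Type*} [Infinite X] (s : X → Γ)
    (hs : ∀ x, s x ∈ cl ρ C) : ∃ x y, x ≠ y ∧ (s x)⁻¹ * s y ∈ cl ρ Q := by
  have : (Q.subgroupOf C).FiniteIndex := ⟨h⟩
  have h1 : IsClosed (⋃ c : C ⧸ Q.subgroupOf C, {γ : Γ | (ρ c.out)⁻¹ * γ ∈ cl ρ Q}) :=
    isClosed_iUnion_of_finite fun c => cl_closed.preimage (continuous_const_mul _)
  have h2 : ∀ x, ∃ c : C ⧸ Q.subgroupOf C, (ρ c.out)⁻¹ * s x ∈ cl ρ Q := fun x => by
    refine mem_iUnion.1 (closure_minimal ?_ h1 (hs x))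
    rintro _ ⟨g, hg, rfl⟩
    obtain ⟨q, hq⟩ := QuotientGroup.mk_out_eq_mul (Q.subgroupOf C) ⟨g, hg⟩
    refine mem_iUnion.2 ⟨QuotientGroup.mk ⟨g, hg⟩, ?_⟩
    rw [mem_setOf_eq, hq, ← map_inv, ← map_mul]
    refine mem_cl ?_
    rw [Subgroup.coe_mul, mul_inv_rev, inv_mul_cancel_right]
    exact inv_mem q.2
  choose c hc using h2
  obtain ⟨x, y, h3, h4⟩ := Finite.exists_ne_map_eq_of_infinite c
  refine ⟨x, y, h3, ?_⟩
  have h5 := mul_mem (inv_mem (hc x)) (hc y)
  rwa [h4, mul_inv_rev, inv_inv, mul_assoc, mul_inv_cancel_left] at h5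

variable {F R : Type*} [Field F] [Ring R] [Algebra F R]

/-- unipotent units -/
def un {x : R} (h : x * x = 0) (t : F) : Rˣ where
  val := 1 + t • x
  inv := 1 + (-t) • x
  val_inv := by simp [add_mul, mul_add, h]
  inv_val := by simp [add_mul, mul_add, h]

/-- dilations -/
def dl {e : R} (h : e * e = e) {c : F} (hc : c ≠ 0) : Rˣ where
  val := 1 + (c - 1) • e
  inv := 1 + (c⁻¹ - 1) • e
  val_inv := by
    simp only [add_mul, mul_add, h, one_mul, mul_one, smul_mul_smul_comm, add_assoc, ← add_smul]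
    rw [show c - 1 + (c⁻¹ - 1 + (c - 1) * (c⁻¹ - 1)) = 0 by field_simp; ring, zero_smul, add_zero]
  inv_val := by
    simp only [add_mul, mul_add, h, one_mul, mul_one, smul_mul_smul_comm, add_assoc, ← add_smul]
    rw [show c⁻¹ - 1 + (c - 1 + (c⁻¹ - 1) * (c - 1)) = 0 by field_simp; ring, zero_smul, add_zero]

theorem un_mul {x : R} (h : x * x = 0) (s t : F) : un h s * un h t = un h (s + t) :=
  Units.ext (by
    show (1 + s • x) * (1 + t • x) = 1 + (s + t) • x
    simp only [add_mul, mul_add, h, one_mul, mul_one, smul_mul_smul_comm, smul_zero, add_zero,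
      add_smul, add_assoc])

theorem un_inv {x : R} (h : x * x = 0) (t : F) : (un h t)⁻¹ = un h (-t) := Units.ext rfl

theorem dl_un {x e : R} (h : x * x = 0) (he : e * e = e) (h1 : e * x = x) (h2 : x * e = 0) {c : F}
    (hc : c ≠ 0) (t : F) : dl he hc * un h t * (dl he hc)⁻¹ = un h (c * t) := by
  rw [mul_inv_eq_iff_eq_mul]
  refine Units.ext ?_
  show (1 + (c - 1) • e) * (1 + t • x) = (1 + (c * t) • x) * (1 + (c - 1) • e)
  simp only [add_mul, mul_add, h1, h2, one_mul, mul_one, smul_mul_smul_comm, smul_zero, add_zero]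
  module

theorem tv_le (F : Type*) [Field F] [Infinite F] [Algebra F R] (hr : ∀ x : R, ∃ y, x * y * x = x)
    (σ : Rˣ →* Γ) (hσ : ∀ u, σ u ∈ cl ρ ⊤) [Q.Normal] (hC : ∀ a b : G, ⁅a, b⁆ ∈ C)
    (h : Q.relIndex C ≠ 0) {u : Rˣ} (hu : u ∈ Tv R) : σ u ∈ cl ρ Q := by
  classical
  refine (Subgroup.closure_le ((cl ρ Q).comap σ)).2 ?_ hu
  rintro u ⟨x, hx, hu⟩
  obtain ⟨y, hy⟩ := hr x
  have he : x * y * (x * y) = x * y := by rw [← mul_assoc, hy]
  have h2 : x * (x * y) = 0 := by rw [← mul_assoc, hx, zero_mul]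
  obtain ⟨c, hc⟩ := Infinite.exists_notMem_finset ({0, 1} : Finset F)
  rw [Finset.mem_insert, Finset.mem_singleton, not_or] at hc
  have h3 : ∀ t : F, σ (un hx t) ∈ cl ρ C := fun t => by
    have h4 := cl_comm hC (hσ (dl he hc.1)) (hσ (un hx (t / (c - 1))))
    rwa [← map_inv, ← map_inv, ← map_mul, ← map_mul, ← map_mul, dl_un hx he hy h2, un_inv, un_mul,
      show c * (t / (c - 1)) + -(t / (c - 1)) = t by field_simp [sub_ne_zero.2 hc.2]; ring] at h4
  obtain ⟨s, t, h4, h5⟩ := cl_fin h _ h3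
  rw [← map_inv, ← map_mul, un_inv, un_mul] at h5
  have h6 : -s + t ≠ 0 := fun e => h4 (neg_add_eq_zero.1 e)
  have h7 := cl_conj (hσ (dl he (inv_ne_zero h6))) h5
  rw [← map_inv, ← map_mul, ← map_mul, dl_un hx he hy h2, inv_mul_cancel₀ h6] at h7
  obtain rfl : u = un hx (1 : F) := Units.ext (hu.trans (by show _ = 1 + (1 : F) • x; rw [one_smul]))
  exact h7

end grp

theorem val_emb {F m : Type*} [NormedField F] [Fintype m] [DecidableEq m] :
    IsEmbedding (Units.val : (Matrix m m F)ˣ → Matrix m m F) := by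
  refine Units.isEmbedding_val_mk' (f := Inv.inv) (fun x hx => ?_) fun u => (Matrix.coe_units_inv u).symm
  refine (continuousAt_matrix_inv x ?_).continuousWithinAt
  rw [Ring.inverse_eq_inv']
  exact continuousAt_inv₀ ((Matrix.isUnit_iff_isUnit_det x).1 hx).ne_zero

section loc

variable {k D ι : Type} [Field k] [DivisionRing D] [Algebra k D] [Finite ι] [DecidableEq ι]
  {F : ι → Type} [∀ i, NormedField (F i)] {m : ι → ℕ} {φ : ∀ i, k →+* F i}
  (f : ∀ i, D →+* Matrix (Fin (m i)) (Fin (m i)) (F i))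

/-- The diagonal map. -/
def rho : Dˣ →* ∀ i, (Matrix (Fin (m i)) (Fin (m i)) (F i))ˣ :=
  Pi.monoidHom fun i => Units.map (f i : D →* Matrix (Fin (m i)) (Fin (m i)) (F i))

theorem rho_val (u : Dˣ) (i : ι) : (rho f u i).1 = f i u := rfl

variable {f} (hf : ∀ i c d, f i (c • d) = φ i c • f i d) (hd : DenseRange fun (c : k) i => φ i c)
include hf hd

theorem single_clo (i : ι) {Y : Matrix (Fin (m i)) (Fin (m i)) (F i)}
    (h : Y ∈ Submodule.span (F i) (range (f i))) :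
    Pi.single i Y ∈ (Pi.ringHom f).range.toAddSubgroup.topologicalClosure := by
  obtain ⟨s, c, g, rfl⟩ := Submodule.mem_span_set'.1 h
  rw [← AddMonoidHom.single_apply, map_sum]
  refine sum_mem fun l _ => ?_
  obtain ⟨d, e⟩ := (g l).2
  have h1 : (fun j => (Pi.single i (c l) : ∀ j, F j) j • f j d) ∈
      closure ((Pi.ringHom f).range : Set (∀ i, Matrix (Fin (m i)) (Fin (m i)) (F i))) := by
    refine hd.induction_on (p := fun a => (fun j => a j • f j d) ∈ closure _) _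
      (isClosed_closure.preimage (by fun_prop)) fun a => subset_closure ⟨a • d, ?_⟩
    funext j
    exact hf j a d
  refine (congrArg (· ∈ _) ?_).mp h1
  funext j
  rw [AddMonoidHom.single_apply]
  by_cases e' : j = i
  · subst e'
    rw [Pi.single_eq_same, Pi.single_eq_same, e]
  · rw [Pi.single_eq_of_ne e', Pi.single_eq_of_ne e', zero_smul]

theorem single_mem (i : ι) (u : (Matrix (Fin (m i)) (Fin (m i)) (F i))ˣ)
    (h : u.1 ∈ Submodule.span (F i) (range (f i))) : Pi.mulSingle i u ∈ cl (rho f) ⊤ := by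
  set γ : ∀ i, (Matrix (Fin (m i)) (Fin (m i)) (F i))ˣ := Pi.mulSingle i u with hγ
  have h1 : (fun j => (γ j).1) ∈ (Pi.ringHom f).range.toAddSubgroup.topologicalClosure := by
    have h2 := add_mem (AddSubgroup.le_topologicalClosure _ (one_mem (Pi.ringHom f).range))
      (single_clo hf hd i (sub_mem h (Submodule.subset_span ⟨1, map_one _⟩)))
    refine (congrArg (· ∈ _) ?_).mp h2
    funext j
    by_cases e' : j = i
    · subst e'
      rw [hγ, Pi.add_apply, Pi.single_eq_same, Pi.mulSingle_eq_same, Pi.one_apply, add_sub_cancel]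
    · rw [hγ, Pi.add_apply, Pi.single_eq_of_ne e', Pi.mulSingle_eq_of_ne e', add_zero]
      rfl
  have h2 : IsInducing (Pi.map fun j =>
      (Units.val : (Matrix (Fin (m j)) (Fin (m j)) (F j))ˣ → _)) :=
    IsInducing.piMap fun j => val_emb.1
  by_cases h0 : (fun j => (γ j).1) = 0
  · have h4 : γ = 1 := funext fun j => Units.ext (by
      have h3 : (γ j).1 = 0 := congrFun h0 j
      rw [h3, Pi.one_apply, Units.val_one, ← (γ j).mul_inv, h3, zero_mul])
    exact h4 ▸ one_mem _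
  show γ ∈ closure _
  rw [h2.closure_eq_preimage_closure_image]
  have h3 : ((Pi.ringHom f).range : Set (∀ i, Matrix (Fin (m i)) (Fin (m i)) (F i))) ⊆
      closure ((Pi.map fun j => Units.val) '' ((⊤ : Subgroup Dˣ).map (rho f))) ∪ {0} := by
    rintro _ ⟨d, rfl⟩
    by_cases hd0 : d = 0
    · exact Or.inr (hd0 ▸ map_zero _)
    · exact Or.inl (subset_closure ⟨_, ⟨Units.mk0 d hd0, trivial, rfl⟩, rfl⟩)
  exact (closure_minimal h3 (isClosed_closure.union isClosed_singleton) h1).resolve_right h0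

/-- The unipotent elements at one place are in the closure. -/
theorem main [Infinite k] {Q C : Subgroup Dˣ} [Q.Normal] (hC : ∀ a b : Dˣ, ⁅a, b⁆ ∈ C)
    (h : Q.relIndex C ≠ 0) (i : ι) {R : Type} [Ring R] [Algebra k R] [IsSemisimpleRing R]
    (θ : R →+* Matrix (Fin (m i)) (Fin (m i)) (F i))
    (hθ : ∀ x, θ x ∈ Submodule.span (F i) (range (f i))) {u : Rˣ} (hu : u ∈ Tv R) :
    Pi.mulSingle i (Units.map (θ : R →* Matrix (Fin (m i)) (Fin (m i)) (F i)) u) ∈
      cl (rho f) Q :=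
  tv_le k reg ((MonoidHom.mulSingle (fun i => (Matrix (Fin (m i)) (Fin (m i)) (F i))ˣ) i).comp
    (Units.map (θ : R →* Matrix (Fin (m i)) (Fin (m i)) (F i))))
    (fun u => single_mem hf hd i _ (hθ u)) hC h hu

end loc

end Vale.Agent.P011UM
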